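import Mathlib
import Vale.Agent.P015.SplitSum
import Vale.Agent.P013.Mertens

/-!
# Mertens' first theorem for the primes congruent to one modulo four, from below
-/

namespace Vale.Agent.P015.LowComplexity

open Finset
open scoped ArithmeticFunction.vonMangoldt

/-- The character modulo four, as a real number. -/
noncomputable def chi (n : ℕ) : ℝ := ((ZMod.χ₄ (n : ZMod 4) : ℤ) : ℝ)

lemma chi_mul (a b : ℕ) : chi (a * b) = chi a * chi b := by
  simp [chi, map_mul]

lemma abs_chi_le (n : ℕ) : |chi n| ≤ 1 := by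
  unfold chi
  rcases chi_cases n with h | h | h <;> rw [h] <;> norm_num

lemma chi_odd (i : ℕ) : chi (2 * i + 1) = (-1 : ℝ) ^ i := by
  unfold chi
  rw [ZMod.χ₄_eq_neg_one_pow (by omega), show (2 * i + 1) / 2 = i by omega]
  push_cast; rfl

lemma chi_even (i : ℕ) : chi (2 * i) = 0 := by
  unfold chi
  rw [ZMod.χ₄_nat_eq_if_mod_four, if_pos (by omega)]
  simp

lemma sum_chi_eq (f : ℕ → ℝ) (N : ℕ) :
    ∑ n ∈ Icc 1 N, chi n * f n = ∑ i ∈ range ((N + 1) / 2), (-1 : ℝ) ^ i * f (2 * i + 1) := by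
  induction N with
  | zero => simp
  | succ m ih =>
    rw [Finset.sum_Icc_succ_top (by omega), ih]
    rcases Nat.even_or_odd' m with ⟨i, rfl | rfl⟩
    · rw [show (2 * i + 1 + 1) / 2 = i + 1 by omega, show (2 * i + 1) / 2 = i by omega,
        Finset.sum_range_succ, chi_odd]
    · rw [show (2 * i + 1 + 1 + 1) / 2 = i + 1 by omega, show (2 * i + 1 + 1) / 2 = i + 1 by omega,
        show 2 * i + 1 + 1 = 2 * (i + 1) by ring, chi_even]
      ring

lemma alt_bound (N : ℕ) {f : ℕ → ℝ} (hf : Antitone f) (h0 : ∀ i, 0 ≤ f i) :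
    0 ≤ ∑ i ∈ range N, (-1 : ℝ) ^ i * f i ∧ ∑ i ∈ range N, (-1 : ℝ) ^ i * f i ≤ f 0 := by
  refine ⟨alt_sum_nonneg N f hf h0, ?_⟩
  rcases N with _ | n
  · simpa using h0 0
  · rw [Finset.sum_range_succ']
    have h := alt_sum_nonneg n (fun i => f (i + 1)) (fun a b hab => hf (by omega)) fun i => h0 _
    have e : ∀ i, (-1 : ℝ) ^ (i + 1) * f (i + 1) = -((-1 : ℝ) ^ i * f (i + 1)) := fun i => by ring
    simp only [e, Finset.sum_neg_distrib, pow_zero, one_mul]
    linarith

lemma alt_range_sub {f : ℕ → ℝ} (hf : Antitone f) (h0 : ∀ i, 0 ≤ f i) {a b : ℕ} (hab : a ≤ b) :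
    |∑ i ∈ range b, (-1 : ℝ) ^ i * f i - ∑ i ∈ range a, (-1 : ℝ) ^ i * f i| ≤ f a := by
  obtain ⟨d, rfl⟩ := Nat.exists_eq_add_of_le hab
  rw [Finset.sum_range_add, add_sub_cancel_left]
  have e : ∀ i, (-1 : ℝ) ^ (a + i) * f (a + i) = (-1 : ℝ) ^ a * ((-1 : ℝ) ^ i * f (a + i)) :=
    fun i => by rw [pow_add]; ring
  simp only [e, ← Finset.mul_sum]
  obtain ⟨h1, h2⟩ := alt_bound d (f := fun i => f (a + i)) (fun x y hxy => hf (by omega))
    fun i => h0 _
  rw [abs_mul, abs_pow, abs_neg, abs_one, one_pow, one_mul, abs_of_nonneg h1]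
  simpa using h2

/-- Partial sums of `χ(n)/n`. -/
noncomputable def lsum (N : ℕ) : ℝ := ∑ n ∈ Icc 1 N, chi n * (1 / (n : ℝ))

lemma lsum_close (a b : ℕ) : |lsum a - lsum b| ≤ 2 / ((min a b : ℕ) + 1) := by
  wlog hab : a ≤ b generalizing a b
  · rw [abs_sub_comm, min_comm]; exact this b a (by omega)
  rw [min_eq_left hab, abs_sub_comm]
  have hf : Antitone fun i : ℕ => (1 : ℝ) / ((2 * i + 1 : ℕ) : ℝ) := fun x y hxy =>
    one_div_le_one_div_of_le (by positivity) (by exact_mod_cast (show 2 * x + 1 ≤ 2 * y + 1 by omega))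
  simp only [lsum, sum_chi_eq]
  refine (alt_range_sub hf (fun i => by positivity) (show (a + 1) / 2 ≤ (b + 1) / 2 by omega)).trans ?_
  rw [div_le_div_iff₀ (by positivity) (by positivity), one_mul]
  exact_mod_cast (show a + 1 ≤ 2 * (2 * ((a + 1) / 2) + 1) by omega)

lemma lsum_ge (N : ℕ) (hN : 1 ≤ N) : 2 / 3 ≤ lsum N := by
  have hf : Antitone fun i : ℕ => (1 : ℝ) / ((2 * i + 1 : ℕ) : ℝ) := fun x y hxy =>
    one_div_le_one_div_of_le (by positivity) (by exact_mod_cast (show 2 * x + 1 ≤ 2 * y + 1 by omega))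
  rw [lsum, sum_chi_eq]
  rcases Nat.lt_or_ge ((N + 1) / 2) 2 with h | h
  · rw [show (N + 1) / 2 = 1 by omega]
    norm_num
  · obtain ⟨d, hd⟩ := Nat.exists_eq_add_of_le' h
    rw [hd]
    have := alt_sum_ge d _ hf fun i => by positivity
    norm_num at this ⊢
    linarith

lemma sum_chi_log_bound (N : ℕ) : |∑ n ∈ Icc 1 N, chi n * (Real.log n / n)| ≤ 1 := by
  rw [sum_chi_eq (fun n => Real.log n / n)]
  rcases (N + 1) / 2 with _ | M
  · simp
  rw [Finset.sum_range_succ']
  have hf : Antitone fun i : ℕ => Real.log ((2 * i + 3 : ℕ) : ℝ) / ((2 * i + 3 : ℕ) : ℝ) := by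
    intro x y hxy
    have h3 : Real.exp 1 ≤ 3 := by linarith [Real.exp_one_lt_d9]
    have hx : (3 : ℝ) ≤ ((2 * x + 3 : ℕ) : ℝ) := by exact_mod_cast (show 3 ≤ 2 * x + 3 by omega)
    have hy : ((2 * x + 3 : ℕ) : ℝ) ≤ ((2 * y + 3 : ℕ) : ℝ) := by
      exact_mod_cast (show 2 * x + 3 ≤ 2 * y + 3 by omega)
    exact Real.log_div_self_antitoneOn (by simpa using h3.trans hx)
      (by simpa using h3.trans (hx.trans hy)) hy
  have e : ∀ i : ℕ, (-1 : ℝ) ^ (i + 1) * (Real.log ((2 * (i + 1) + 1 : ℕ) : ℝ) /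
      ((2 * (i + 1) + 1 : ℕ) : ℝ)) =
      -((-1 : ℝ) ^ i * (Real.log ((2 * i + 3 : ℕ) : ℝ) / ((2 * i + 3 : ℕ) : ℝ))) := fun i => by
    rw [show 2 * (i + 1) + 1 = 2 * i + 3 by ring]; ring
  simp only [e, Finset.sum_neg_distrib]
  obtain ⟨h1, h2⟩ := alt_bound M hf fun i => by
    have : (1 : ℝ) ≤ ((2 * i + 3 : ℕ) : ℝ) := by exact_mod_cast (show 1 ≤ 2 * i + 3 by omega)
    exact div_nonneg (Real.log_nonneg this) (by linarith)
  have h3 : Real.log 3 / 3 ≤ 1 := by
    have := Real.log_le_sub_one_of_pos (show (0 : ℝ) < 3 by norm_num); linarith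
  norm_num at h1 h2 ⊢
  rw [abs_le]
  constructor <;> linarith

/-- `∑ Λ(n) χ(n)/n` is bounded. -/
lemma sum_chi_vonMangoldt : ∃ K : ℝ, ∀ N : ℕ, |∑ d ∈ Icc 1 N, chi d * Λ d / d| ≤ K := by
  refine ⟨(3 / 2) * (1 + 2 * (Real.log 4 + 4)), fun N => ?_⟩
  rcases Nat.eq_zero_or_pos N with rfl | hN
  · simp; positivity
  have hN' : (0 : ℝ) < N := by exact_mod_cast hN
  have hswap : ∑ n ∈ Icc 1 N, chi n * (Real.log n / n) =
      ∑ d ∈ Icc 1 N, chi d * Λ d / d * lsum (N / d) := by
    rw [sum_congr rfl fun n _ => show chi n * (Real.log n / n) =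
      ∑ d ∈ n.divisors, chi n * (Λ d / n) by
        rw [← Finset.mul_sum, ← Finset.sum_div, ArithmeticFunction.vonMangoldt_sum]]
    rw [sum_comm' (t' := Icc 1 N) (s' := fun d => (Icc 1 N).filter fun n => d ∣ n)]
    · refine sum_congr rfl fun d hd => ?_
      simp only [mem_Icc] at hd
      have himg : (Icc 1 N).filter (fun n => d ∣ n) = (Icc 1 (N / d)).image (fun m => d * m) := by
        ext n
        simp only [mem_filter, mem_Icc, mem_image]
        constructor
        · rintro ⟨⟨h1, h2⟩, m, rfl⟩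
          exact ⟨m, ⟨Nat.pos_of_mul_pos_left (show 0 < d * m by omega),
            (Nat.le_div_iff_mul_le (by omega)).2 (by rwa [mul_comm])⟩, rfl⟩
        · rintro ⟨m, ⟨h1, h2⟩, rfl⟩
          have := (Nat.le_div_iff_mul_le (show 0 < d by omega)).1 h2
          exact ⟨⟨Nat.one_le_iff_ne_zero.2 (mul_ne_zero (by omega) (by omega)),
            by rwa [mul_comm]⟩, dvd_mul_right d m⟩
      rw [himg, sum_image fun x _ y _ hxy => Nat.eq_of_mul_eq_mul_left (by omega) hxy, lsum,
        mul_sum]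
      refine sum_congr rfl fun m _ => ?_
      rw [chi_mul]; push_cast; ring
    · intro n d
      simp only [mem_Icc, Nat.mem_divisors, mem_filter]
      constructor
      · rintro ⟨⟨h1, h2⟩, h3, _⟩
        have := Nat.le_of_dvd (by omega) h3
        have := Nat.pos_of_dvd_of_pos h3 (by omega)
        exact ⟨⟨⟨h1, h2⟩, h3⟩, by omega, by omega⟩
      · rintro ⟨⟨⟨h1, h2⟩, h3⟩, _, _⟩
        exact ⟨⟨h1, h2⟩, h3, by omega⟩
  set S := ∑ d ∈ Icc 1 N, chi d * Λ d / d with hS
  have herr : |S * lsum N - ∑ d ∈ Icc 1 N, chi d * Λ d / d * lsum (N / d)| ≤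
      2 * (Real.log 4 + 4) := by
    rw [hS, sum_mul, ← sum_sub_distrib]
    refine (abs_sum_le_sum_abs _ _).trans ?_
    have hterm : ∀ d ∈ Icc 1 N,
        |chi d * Λ d / d * lsum N - chi d * Λ d / d * lsum (N / d)| ≤ 2 / N * Λ d := by
      intro d hd
      simp only [mem_Icc] at hd
      have hd' : (0 : ℝ) < d := by exact_mod_cast hd.1
      rw [← mul_sub, abs_mul, abs_div, abs_mul, Nat.abs_cast,
        abs_of_nonneg (ArithmeticFunction.vonMangoldt_nonneg (n := d))]
      have h1 := lsum_close N (N / d)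
      rw [min_eq_right (Nat.div_le_self N d)] at h1
      have h2 : (N : ℝ) ≤ d * (((N / d : ℕ) : ℝ) + 1) := by
        exact_mod_cast (Nat.lt_mul_div_succ N (show 0 < d by omega)).le
      calc |chi d| * Λ d / d * |lsum N - lsum (N / d)|
          ≤ 1 * Λ d / d * (2 / (((N / d : ℕ) : ℝ) + 1)) := by
            refine mul_le_mul ?_ h1 (abs_nonneg _) ?_
            · gcongr <;> first | exact abs_chi_le d | exact ArithmeticFunction.vonMangoldt_nonneg
            · exact div_nonneg (by simpa using ArithmeticFunction.vonMangoldt_nonneg) hd'.le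
        _ = 2 * Λ d / (d * (((N / d : ℕ) : ℝ) + 1)) := by field_simp
        _ ≤ 2 * Λ d / N :=
            div_le_div_of_nonneg_left (mul_nonneg two_pos.le ArithmeticFunction.vonMangoldt_nonneg)
              hN' h2
        _ = 2 / N * Λ d := by ring
    refine (sum_le_sum hterm).trans ?_
    have hpsi : ∑ d ∈ Icc 1 N, Λ d ≤ (Real.log 4 + 4) * N := by
      have := Chebyshev.psi_le_const_mul_self hN'.le
      rw [Chebyshev.psi, Nat.floor_natCast] at this
      rwa [show Icc 1 N = Ioc 0 N from Icc_add_one_left_eq_Ioc (a := 0) (b := N)]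
    rw [← mul_sum, div_mul_eq_mul_div, div_le_iff₀ hN']
    linarith
  have h1 := sum_chi_log_bound N
  rw [hswap] at h1
  have h2 := lsum_ge N hN
  have h3 : |S| * (2 / 3) ≤ 1 + 2 * (Real.log 4 + 4) := by
    calc |S| * (2 / 3) ≤ |S| * lsum N := mul_le_mul_of_nonneg_left h2 (abs_nonneg S)
      _ = |S * lsum N| := by rw [abs_mul, abs_of_pos (by linarith : (0 : ℝ) < lsum N)]
      _ ≤ _ := by
        have := abs_sub_abs_le_abs_sub (S * lsum N)
          (∑ d ∈ Icc 1 N, chi d * Λ d / d * lsum (N / d))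
        linarith
  linarith

/-- `∑_{p ≤ N} 2 log p / p` over the primes congruent to `1` mod `4` is at least `log N - K`. -/
theorem split_log_sum_lower : ∃ K : ℝ, ∀ N : ℕ, 1 ≤ N →
    Real.log N - K ≤ ∑ p ∈ splitPrimes N, 2 * (Real.log p / p) := by
  obtain ⟨K1, -, hK1⟩ := Vale.Agent.P013.mertens_first
  obtain ⟨K2, hK2⟩ := Vale.Agent.P013.prime_power_sum_le
  obtain ⟨K3, hK3⟩ := sum_chi_vonMangoldt
  refine ⟨K1 + K2 + K3 + Real.log 2 / 2, fun N hN => ?_⟩
  have hm := (abs_le.1 (hK1 N hN)).1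
  have hchi : -(K2 + K3) ≤ ∑ p ∈ Nat.primesLE N, chi p * (Real.log p / p) := by
    have hsub : Nat.primesLE N ⊆ Icc 1 N := fun p hp => by
      rw [Nat.mem_primesLE] at hp
      exact mem_Icc.2 ⟨hp.2.one_le, hp.1⟩
    have hlog : ∑ p ∈ Nat.primesLE N, Λ p / (p : ℝ) = Vale.Agent.P013.logSum N := by
      refine sum_congr rfl fun p hp => ?_
      rw [ArithmeticFunction.vonMangoldt_apply_prime (Nat.mem_primesLE.1 hp).2]
    have e1 : ∑ p ∈ Nat.primesLE N, chi p * (Real.log p / p) =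
        ∑ d ∈ Icc 1 N, chi d * Λ d / d -
          ∑ d ∈ Icc 1 N \ Nat.primesLE N, chi d * Λ d / d := by
      rw [← sum_sdiff hsub (f := fun d => chi d * Λ d / d)]
      have : ∑ p ∈ Nat.primesLE N, chi p * (Real.log p / p) =
          ∑ p ∈ Nat.primesLE N, chi p * Λ p / p := sum_congr rfl fun p hp => by
        rw [ArithmeticFunction.vonMangoldt_apply_prime (Nat.mem_primesLE.1 hp).2, mul_div_assoc]
      linarith
    have e2 : ∑ d ∈ Icc 1 N \ Nat.primesLE N, chi d * Λ d / d ≤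
        ∑ d ∈ Icc 1 N \ Nat.primesLE N, Λ d / (d : ℝ) := by
      refine sum_le_sum fun d _ => ?_
      rw [mul_div_assoc]
      exact mul_le_of_le_one_left (div_nonneg ArithmeticFunction.vonMangoldt_nonneg
        (Nat.cast_nonneg _)) ((le_abs_self _).trans (abs_chi_le d))
    have e3 := sum_sdiff hsub (f := fun d => Λ d / (d : ℝ))
    linarith [hK2 N, (abs_le.1 (hK3 N)).1]
  have hsplit : ∑ p ∈ splitPrimes N, 2 * (Real.log p / p) ≥
      ∑ p ∈ Nat.primesLE N, (1 + chi p) * (Real.log p / p) - Real.log 2 / 2 := by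
    have hS : splitPrimes N = (Nat.primesLE N).filter (fun p => p % 4 = 1) := by
      ext p; simp [mem_splitPrimes, Nat.mem_primesLE]; tauto
    rw [hS, sum_filter, ge_iff_le, sub_le_iff_le_add]
    calc ∑ p ∈ Nat.primesLE N, (1 + chi p) * (Real.log p / p)
        ≤ ∑ p ∈ Nat.primesLE N, ((if p % 4 = 1 then 2 * (Real.log p / p) else 0) +
            if p = 2 then Real.log 2 / 2 else 0) := by
          refine sum_le_sum fun p hp => ?_
          have hp' := (Nat.mem_primesLE.1 hp).2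
          rcases hp'.eq_two_or_odd with rfl | hodd
          · rw [show chi 2 = 0 from chi_even 1]; norm_num
          · have h2 : p ≠ 2 := by omega
            simp only [h2, if_false, add_zero, chi, ZMod.χ₄_nat_eq_if_mod_four]
            have h3 := div_nonneg (Real.log_natCast_nonneg p) (Nat.cast_nonneg (α := ℝ) p)
            rw [if_neg (by omega : ¬ p % 2 = 0)]
            split_ifs <;> push_cast <;> linarith
      _ ≤ _ := by
        rw [sum_add_distrib, sum_ite_eq']
        have := div_nonneg (Real.log_nonneg (show (1 : ℝ) ≤ 2 by norm_num)) two_pos.le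
        split_ifs <;> linarith
  simp only [add_mul, one_mul, sum_add_distrib] at hsplit
  unfold Vale.Agent.P013.logSum at hm
  linarith

end Vale.Agent.P015.LowComplexity
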