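import Mathlib
import Vale.Agent.P015.Basic

/-!
# Nested repetitions of windows in paths of low complexity
-/

namespace Vale.Agent.P015.LowComplexity

open Finset

/-- The window of length `n` starting at `i`, up to translation. -/
def shape (z : ℕ → GaussianInt) (n i : ℕ) : Fin (n + 1) → GaussianInt :=
  fun a => z (i + a) - z i

/-- The windows of length `n` inside `z 0, ..., z N`, up to translation. -/
def shapes (z : ℕ → GaussianInt) (n N : ℕ) : Finset (Fin (n + 1) → GaussianInt) :=
  (range (N + 1 - n)).image (shape z n)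

/-- The scales, starting from `L`. -/
noncomputable def scale (C c : ℝ) (L M : ℕ) : ℕ → ℕ
  | 0 => L
  | j + 1 => scale C c L M j + M * ⌈C * (scale C c L M j : ℝ) ^ c⌉₊

lemma one_le_scale (C c : ℝ) {L : ℕ} (hL : 1 ≤ L) (M j : ℕ) : 1 ≤ scale C c L M j := by
  induction j with
  | zero => exact hL
  | succ j ih => exact ih.trans (Nat.le_add_right _ _)

lemma scale_mono (C c : ℝ) (L M : ℕ) : Monotone (scale C c L M) :=
  monotone_nat_of_le_succ fun j => Nat.le_add_right _ _

/-- Let the windows of each length up to `N` of a sequence, coloured by a finite colouring `κ`,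
be of at most `C n ^ c` kinds, and let a property `G`, invariant under translation by differences
of equally coloured elements, hold somewhere in every window of length `L`. Then every window of the
`j`th scale contains a translate of a sum of `j` sets of size at least `M`, the `l`th of diameter
bounded by the `(l+1)`st scale, on which `G` holds. -/
theorem exists_levels {α : Type*} [Fintype α] [DecidableEq α] (κ : GaussianInt → α)
    (G : GaussianInt → Prop) (hG : ∀ a b x, κ a = κ b → G x → G (x + (a - b)))
    {z : ℕ → GaussianInt} {N L M : ℕ} {C c d β : ℝ} (hL : 1 ≤ L)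
    (hgood : ∀ i, i + L ≤ N → ∃ a ≤ L, G (z (i + a)))
    (hd : ∀ i ≤ N, ∀ j ≤ N,
      ‖GaussianInt.toComplex (z i - z j)‖ ≤ d * |((i : ℕ) : ℝ) - ((j : ℕ) : ℝ)| ^ β)
    (hd0 : 0 ≤ d) (hβ : 0 ≤ β) (hinj : Set.InjOn z (Set.Iic N)) (hM : 1 ≤ M)
    (hlow : ∀ n, 1 ≤ n → n ≤ N →
      ((shapes z n N).card : ℝ) * Fintype.card α ≤ C * (n : ℝ) ^ c) :
    ∀ j i, i + scale C c L M j ≤ N →
      ∃ (x : GaussianInt) (U : ℕ → Finset GaussianInt),
        (∀ l < j, M ≤ (U l).card) ∧
        (∀ l < j, ∀ u ∈ U l, ∀ v ∈ U l,
          ((u - v).norm : ℝ) ≤ (d * (scale C c L M (l + 1) : ℝ) ^ β) ^ 2) ∧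
        ∀ v : ℕ → GaussianInt, (∀ l < j, v l ∈ U l) →
          ∃ a ≤ scale C c L M j, z (i + a) = x + ∑ l ∈ range j, v l ∧ G (z (i + a)) := by
  intro j
  induction j with
  | zero =>
    intro i hi
    obtain ⟨a, ha, hga⟩ := hgood i hi
    exact ⟨z (i + a), fun _ => ∅, by omega, by omega, fun _ _ => ⟨a, ha, by simp, hga⟩⟩
  | succ j ih =>
    intro i hi
    set n := scale C c L M j with hn
    set B := ⌈C * (n : ℝ) ^ c⌉₊ with hB
    have hnext : scale C c L M (j + 1) = n + M * B := rfl
    set S := Finset.Icc i (i + M * B) with hS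
    have hmaps : ∀ s ∈ S, (shape z n s, κ (z s)) ∈ shapes z n N ×ˢ (univ : Finset α) := fun s hs => by
      refine mem_product.2 ⟨mem_image_of_mem _ (mem_range.2 ?_), mem_univ _⟩
      rw [hS, Finset.mem_Icc] at hs
      omega
    have hn1 : 1 ≤ n := one_le_scale C c hL M j
    have hcard : (shapes z n N ×ˢ (univ : Finset α)).card * M ≤ S.card := by
      have h1 : (((shapes z n N).card * Fintype.card α : ℕ) : ℝ) ≤ (B : ℝ) := by
        push_cast
        exact (hlow n hn1 (by omega)).trans (Nat.le_ceil _)
      have h2 : (shapes z n N).card * Fintype.card α ≤ B := by exact_mod_cast h1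
      rw [hS, Nat.card_Icc, card_product, card_univ]
      calc (shapes z n N).card * Fintype.card α * M ≤ B * M := Nat.mul_le_mul_right _ h2
        _ ≤ _ := by rw [mul_comm]; omega
    obtain ⟨w, -, hw⟩ := exists_le_card_fiber_of_mul_le_card_of_maps_to hmaps
      ⟨_, hmaps i (by simp [hS])⟩ hcard
    set O := S.filter fun s => (shape z n s, κ (z s)) = w with hO
    have hOne : O.Nonempty := card_pos.1 (lt_of_lt_of_le hM hw)
    obtain ⟨i0, hi0⟩ := hOne
    have hOle : ∀ s ∈ O, i ≤ s ∧ s ≤ i + M * B ∧ s + n ≤ N ∧ (shape z n s, κ (z s)) = w :=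
      fun s hs => by
      rw [hO, hS, mem_filter, Finset.mem_Icc] at hs
      exact ⟨hs.1.1, hs.1.2, by omega, hs.2⟩
    obtain ⟨x, U, hU1, hU2, hU3⟩ := ih i0 (hOle i0 hi0).2.2.1
    refine ⟨x, Function.update U j (O.image fun s => z s - z i0), ?_, ?_, ?_⟩
    · intro l hl
      rcases Nat.lt_succ_iff_lt_or_eq.1 hl with h | rfl
      · rw [Function.update_of_ne h.ne]; exact hU1 l h
      · rw [Function.update_self, card_image_of_injOn]
        · exact hw
        · intro s hs t ht hst
          refine hinj ?_ ?_ (sub_left_injective hst) <;> simp only [Set.mem_Iic]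
          · have := hOle s hs; omega
          · have := hOle t ht; omega
    · intro l hl
      rcases Nat.lt_succ_iff_lt_or_eq.1 hl with h | rfl
      · rw [Function.update_of_ne h.ne]; exact hU2 l h
      · rw [Function.update_self]
        simp only [mem_image]
        rintro _ ⟨s, hs, rfl⟩ _ ⟨t, ht, rfl⟩
        rw [sub_sub_sub_cancel_right, GaussianInt.intCast_real_norm, Complex.normSq_eq_norm_sq]
        refine pow_le_pow_left₀ (norm_nonneg _) ((hd s ?_ t ?_).trans ?_) 2
        · have := hOle s hs; omega
        · have := hOle t ht; omega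
        · refine mul_le_mul_of_nonneg_left (Real.rpow_le_rpow (abs_nonneg _) ?_ hβ) hd0
          obtain ⟨a1, a2, -, -⟩ := hOle s hs
          obtain ⟨b1, b2, -, -⟩ := hOle t ht
          have h1 : (i : ℝ) ≤ s := by exact_mod_cast a1
          have h2 : (i : ℝ) ≤ t := by exact_mod_cast b1
          have h3 : (s : ℝ) ≤ i + scale C c L M (l + 1) := by
            exact_mod_cast (show s ≤ i + scale C c L M (l + 1) by rw [hnext]; omega)
          have h4 : (t : ℝ) ≤ i + scale C c L M (l + 1) := by
            exact_mod_cast (show t ≤ i + scale C c L M (l + 1) by rw [hnext]; omega)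
          rw [abs_le]; constructor <;> linarith
    · intro v hv
      have hv' : ∀ l < j, v l ∈ U l := fun l hl => by
        have := hv l (hl.trans (Nat.lt_succ_self j))
        rwa [Function.update_of_ne hl.ne] at this
      obtain ⟨a, ha, hza, hga⟩ := hU3 v hv'
      have hvj := hv j (Nat.lt_succ_self j)
      rw [Function.update_self, mem_image] at hvj
      obtain ⟨s, hs, hvs⟩ := hvj
      obtain ⟨s1, s2, -, s4⟩ := hOle s hs
      have e4 := s4.trans (hOle i0 hi0).2.2.2.symm
      simp only [Prod.mk.injEq] at e4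
      have e := congrFun e4.1 ⟨a, Nat.lt_succ_of_le (hn ▸ ha)⟩
      simp only [shape] at e
      have key : z (s + a) = z (i0 + a) + (z s - z i0) := by linear_combination e
      refine ⟨s - i + a, by rw [hnext]; omega, ?_, ?_⟩ <;>
        rw [show i + (s - i + a) = s + a by omega, key]
      · rw [sum_range_succ, ← hvs, ← add_assoc, hza]
      · exact hG _ _ _ e4.2 hga

end Vale.Agent.P015.LowComplexity
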