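import Mathlib
import Vale.Agent.P015.Basic

/-!
# Residues of finite sets of Gaussian integers modulo split primes: larger sieve and sumsets
-/

namespace Vale.Agent.P015.LowComplexity

open Finset
open scoped Pointwise

open Classical in
/-- A square root of `-1` modulo `p`, when there is one. -/
noncomputable def root (p : ℕ) : ZMod p :=
  if h : ∃ r : ZMod p, r * r = -1 then h.choose else 0

/-- The residue of a Gaussian integer modulo one of the two factors of a split prime. -/
noncomputable def res (p : ℕ) (b : Bool) : GaussianInt →+ ZMod p where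
  toFun w := (w.re : ZMod p) + (if b then root p else -root p) * (w.im : ZMod p)
  map_zero' := by simp
  map_add' x y := by cases b <;> simp <;> ring

lemma root_spec {p : ℕ} (hp : p.Prime) (h4 : p % 4 = 1) : root p * root p = -1 := by
  have h := exists_sqrt_neg_one hp h4
  rw [root, dif_pos h]
  exact h.choose_spec

lemma dvd_norm_of_res_eq_zero {p : ℕ} (hp : p.Prime) (h4 : p % 4 = 1) {b : Bool} {w : GaussianInt}
    (h : res p b w = 0) : (p : ℤ) ∣ w.norm := by
  rw [← ZMod.intCast_zmod_eq_zero_iff_dvd, norm_eq_sq]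
  push_cast
  have h' : (w.re : ZMod p) + (if b then root p else -root p) * (w.im : ZMod p) = 0 := h
  set r := if b then root p else -root p with hr
  have hsq : r * r = -1 := by
    rw [hr]; cases b <;> simp [root_spec hp h4]
  linear_combination ((w.re : ZMod p) - r * w.im) * h' + (w.im : ZMod p) * w.im * hsq

lemma sq_dvd_norm_of_both {p : ℕ} (hp : p.Prime) (h4 : p % 4 = 1) {w : GaussianInt}
    (h1 : res p true w = 0) (h2 : res p false w = 0) : ((p : ℤ) ^ 2) ∣ w.norm := by
  haveI : Fact p.Prime := ⟨hp⟩
  have h1' : (w.re : ZMod p) + root p * (w.im : ZMod p) = 0 := h1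
  have h2' : (w.re : ZMod p) + -root p * (w.im : ZMod p) = 0 := h2
  have hr := root_spec hp h4
  have htwo : (2 : ZMod p) ≠ 0 := by
    intro h
    have h' : ((2 : ℕ) : ZMod p) = 0 := by exact_mod_cast h
    rw [ZMod.natCast_eq_zero_iff] at h'
    have := Nat.le_of_dvd two_pos h'
    have := hp.two_le
    omega
  have hre : (w.re : ZMod p) = 0 :=
    (mul_eq_zero.1 (show (2 : ZMod p) * w.re = 0 by linear_combination h1' + h2')).resolve_left htwo
  have him : (w.im : ZMod p) = 0 := by
    refine (mul_eq_zero.1 (show (2 : ZMod p) * w.im = 0 from ?_)).resolve_left htwo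
    linear_combination (-root p) * h1' + root p * h2' + (2 * (w.im : ZMod p)) * hr
  obtain ⟨a, ha⟩ := (ZMod.intCast_zmod_eq_zero_iff_dvd _ _).1 hre
  obtain ⟨c, hc⟩ := (ZMod.intCast_zmod_eq_zero_iff_dvd _ _).1 him
  exact ⟨a * a + c * c, by rw [norm_eq_sq, ha, hc]; ring⟩

/-- The weights of the residue maps killing a fixed nonzero element are bounded by its norm. -/
lemma sum_log_le_log_norm (P : Finset ℕ) (hP : ∀ p ∈ P, p.Prime ∧ p % 4 = 1) {w : GaussianInt}
    (hw : w ≠ 0) :
    ∑ i ∈ P ×ˢ (univ : Finset Bool), (if res i.1 i.2 w = 0 then Real.log i.1 else 0) ≤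
      Real.log (w.norm : ℝ) := by
  set n := w.norm.natAbs with hn
  have hnn : (w.norm : ℝ) = (n : ℝ) := by
    rw [hn, ← Int.cast_natCast, Int.natAbs_of_nonneg (GaussianInt.norm_nonneg w)]
  have hn0 : n ≠ 0 := fun h => hw ((GaussianInt.norm_pos.not.trans not_not).1 (by
    have := Int.natAbs_eq_zero.1 h; omega))
  rw [hnn, Real.log_nat_eq_sum_factorization, Finset.sum_product, Finsupp.sum,
    Nat.support_factorization]
  calc ∑ p ∈ P, ∑ b : Bool, (if res p b w = 0 then Real.log p else 0)
      ≤ ∑ p ∈ P, (n.factorization p : ℝ) * Real.log p := by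
        refine sum_le_sum fun p hp => ?_
        obtain ⟨hpp, h4⟩ := hP p hp
        have hl := Real.log_natCast_nonneg p
        have key : ∀ k : ℕ, ((p : ℤ) ^ k) ∣ w.norm →
            (k : ℝ) * Real.log p ≤ n.factorization p * Real.log p := fun k hk => by
          refine mul_le_mul_of_nonneg_right ?_ hl
          have h' : p ^ k ∣ n := Int.natCast_dvd.1 (by exact_mod_cast hk)
          exact_mod_cast (hpp.pow_dvd_iff_le_factorization hn0).1 h'
        rw [Fintype.sum_bool]
        split_ifs with h1 h2 h2
        · have := key 2 (sq_dvd_norm_of_both hpp h4 h1 h2)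
          push_cast at this
          linarith
        · have := key 1 (by simpa using dvd_norm_of_res_eq_zero hpp h4 h1)
          push_cast at this
          linarith
        · have := key 1 (by simpa using dvd_norm_of_res_eq_zero hpp h4 h2)
          push_cast at this
          linarith
        · simpa using mul_nonneg (Nat.cast_nonneg (n.factorization p)) hl
    _ = ∑ p ∈ P ∩ n.primeFactors, (n.factorization p : ℝ) * Real.log p := by
        refine (sum_subset inter_subset_left fun p hp hp' => ?_).symm
        have h0 : n.factorization p = 0 := by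
          rw [← Finsupp.notMem_support_iff, Nat.support_factorization]
          exact fun h => hp' (mem_inter.2 ⟨hp, h⟩)
        simp [h0]
    _ ≤ _ := sum_le_sum_of_subset_of_nonneg inter_subset_right fun p _ _ =>
        mul_nonneg (Nat.cast_nonneg _) (Real.log_natCast_nonneg p)

/-- Gallagher's larger sieve in the Gaussian integers. -/
lemma larger_sieve (P : Finset ℕ) (hP : ∀ p ∈ P, p.Prime ∧ p % 4 = 1) (X : Finset GaussianInt)
    (hX : X.Nonempty) (L : ℝ) (hL1 : 1 ≤ L)
    (hL : ∀ x ∈ X, ∀ y ∈ X, ((x - y).norm : ℝ) ≤ L) :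
    ∑ i ∈ P ×ˢ (univ : Finset Bool), Real.log i.1 / ((X.image (res i.1 i.2)).card : ℝ) ≤
      Real.log L + (∑ p ∈ P, 2 * Real.log p) / X.card := by
  set m : ℝ := (X.card : ℝ) with hm
  have hm0 : 0 < m := by simpa [hm] using hX.card_pos
  set I := P ×ˢ (univ : Finset Bool) with hI
  have hup : ∑ i ∈ I, Real.log i.1 *
      ∑ x ∈ X, ∑ y ∈ X, (if res i.1 i.2 x = res i.1 i.2 y then (1 : ℝ) else 0) ≤
      m * (∑ p ∈ P, 2 * Real.log p) + m * m * Real.log L := by
    rw [show ∑ i ∈ I, Real.log i.1 *
        ∑ x ∈ X, ∑ y ∈ X, (if res i.1 i.2 x = res i.1 i.2 y then (1 : ℝ) else 0) =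
        ∑ x ∈ X, ∑ y ∈ X, ∑ i ∈ I, (if res i.1 i.2 (x - y) = 0 then Real.log i.1 else 0) by
      simp only [Finset.mul_sum]
      rw [sum_comm]
      refine sum_congr rfl fun x _ => ?_
      rw [sum_comm]
      refine sum_congr rfl fun y _ => sum_congr rfl fun i _ => ?_
      simp [map_sub, sub_eq_zero]]
    have hone : ∀ x ∈ X, ∑ y ∈ X, ∑ i ∈ I, (if res i.1 i.2 (x - y) = 0 then Real.log i.1 else 0) ≤
        (∑ p ∈ P, 2 * Real.log p) + m * Real.log L := by
      intro x hx
      rw [← add_sum_erase X _ hx]
      refine add_le_add ?_ ?_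
      · rw [hI, sum_product]
        refine sum_le_sum fun p _ => ?_
        simp
      · refine (sum_le_card_nsmul _ _ (Real.log L) fun y hy => ?_).trans ?_
        · obtain ⟨hne, hy⟩ := mem_erase.1 hy
          have hsub : x - y ≠ 0 := sub_ne_zero.2 hne.symm
          refine (sum_log_le_log_norm P hP hsub).trans (Real.log_le_log ?_ (hL x hx y hy))
          exact_mod_cast GaussianInt.norm_pos.2 hsub
        · rw [nsmul_eq_mul]
          refine mul_le_mul_of_nonneg_right ?_ (Real.log_nonneg hL1)
          rw [hm]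
          exact_mod_cast card_erase_le
    refine (sum_le_card_nsmul X _ _ hone).trans (le_of_eq ?_)
    rw [nsmul_eq_mul]; ring
  have hlow : m * m * ∑ i ∈ I, Real.log i.1 / ((X.image (res i.1 i.2)).card : ℝ) ≤
      ∑ i ∈ I, Real.log i.1 *
        ∑ x ∈ X, ∑ y ∈ X, (if res i.1 i.2 x = res i.1 i.2 y then (1 : ℝ) else 0) := by
    rw [mul_sum]
    refine sum_le_sum fun i _ => ?_
    set R := X.image (res i.1 i.2) with hR
    have hR0 : (0 : ℝ) < R.card := by exact_mod_cast (hX.image _).card_pos
    have e : ∑ x ∈ X, ∑ y ∈ X, (if res i.1 i.2 x = res i.1 i.2 y then (1 : ℝ) else 0) =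
        ∑ r ∈ R, ((X.filter fun x => res i.1 i.2 x = r).card : ℝ) ^ 2 := by
      rw [← sum_fiberwise_of_maps_to (s := X) (t := R) (g := res i.1 i.2)
        (fun x hx => mem_image_of_mem _ hx)
        (fun x => ∑ y ∈ X, (if res i.1 i.2 x = res i.1 i.2 y then (1 : ℝ) else 0))]
      refine sum_congr rfl fun r _ => ?_
      rw [sq, ← nsmul_eq_mul, ← sum_const]
      refine sum_congr rfl fun x hx => ?_
      rw [sum_boole, (mem_filter.1 hx).2]
      simp only [eq_comm]
    have hcs := sq_sum_le_card_mul_sum_sq (s := R)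
      (f := fun r => ((X.filter fun x => res i.1 i.2 x = r).card : ℝ))
    have hsum : ∑ r ∈ R, ((X.filter fun x => res i.1 i.2 x = r).card : ℝ) = m := by
      rw [hm, card_eq_sum_card_image (res i.1 i.2) X, hR]
      push_cast; rfl
    rw [hsum, ← e] at hcs
    rw [← mul_div_assoc, div_le_iff₀ hR0]
    calc m * m * Real.log i.1 = Real.log i.1 * m ^ 2 := by ring
      _ ≤ _ := by
        rw [mul_assoc]
        refine mul_le_mul_of_nonneg_left (hcs.trans (le_of_eq ?_)) (Real.log_natCast_nonneg _)
        ring
  have h := hlow.trans hup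
  rw [← le_div_iff₀' (mul_pos hm0 hm0)] at h
  refine h.trans (le_of_eq ?_)
  field_simp
  ring

/-- The iterated sumset. -/
def sumset {p : ℕ} (R : ℕ → Finset (ZMod p)) : ℕ → Finset (ZMod p)
  | 0 => {0}
  | j + 1 => sumset R j + R j

lemma sumset_nonempty {p : ℕ} {R : ℕ → Finset (ZMod p)} {k : ℕ}
    (hR : ∀ l < k, (R l).Nonempty) : (sumset R k).Nonempty := by
  induction k with
  | zero => exact singleton_nonempty 0
  | succ k ih => exact (ih fun l hl => hR l (hl.trans (Nat.lt_succ_self k))).add (hR k (by omega))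

/-- A sumset missing a residue is made of small sets (Cauchy-Davenport). -/
lemma sum_card_le_of_sumset {p : ℕ} (hp : p.Prime) {R : ℕ → Finset (ZMod p)} :
    ∀ k, (∀ l < k, (R l).Nonempty) → (sumset R k).card < p →
      (∑ l ∈ range k, (R l).card) + 1 ≤ (sumset R k).card + k := by
  intro k
  induction k with
  | zero => simp [sumset]
  | succ k ih =>
    intro hR hlt
    have hne : (sumset R k).Nonempty := sumset_nonempty fun l hl => hR l (hl.trans k.lt_succ_self)
    have hk := hR k k.lt_succ_self
    have hcd := ZMod.cauchy_davenport hp hne hk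
    have hsub : (sumset R k).card ≤ (sumset R (k + 1)).card := card_le_card_add_right hk
    have hcard : (sumset R (k + 1)).card = (sumset R k + R k).card := rfl
    have h := ih (fun l hl => hR l (hl.trans k.lt_succ_self)) (hsub.trans_lt hlt)
    rw [min_le_iff] at hcd
    rw [sum_range_succ]
    have := hk.card_pos
    omega

lemma mem_sumset_image {p : ℕ} {b : Bool} {U : ℕ → Finset GaussianInt} :
    ∀ k, ∀ r ∈ sumset (fun l => (U l).image (res p b)) k,
      ∃ v : ℕ → GaussianInt, (∀ l < k, v l ∈ U l) ∧ res p b (∑ l ∈ range k, v l) = r := by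
  intro k
  induction k with
  | zero =>
    intro r hr
    exact ⟨fun _ => 0, by simp, by simpa [sumset, eq_comm] using hr⟩
  | succ k ih =>
    intro r hr
    simp only [sumset, mem_add, mem_image] at hr
    obtain ⟨a, ha, c, ⟨u, hu, rfl⟩, rfl⟩ := hr
    obtain ⟨v, hv, rfl⟩ := ih a ha
    refine ⟨Function.update v k u, fun l hl => ?_, ?_⟩
    · rcases Nat.lt_succ_iff_lt_or_eq.1 hl with h | rfl
      · rw [Function.update_of_ne h.ne]; exact hv l h
      · rw [Function.update_self]; exact hu
    · rw [sum_range_succ, Function.update_self, map_add]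
      congr 2
      exact sum_congr rfl fun l hl => Function.update_of_ne (mem_range.1 hl).ne _ _

end Vale.Agent.P015.LowComplexity
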