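import Mathlib
import Vale.Agent.P015.LowComplexity.Chi
import Vale.Agent.P015.LowComplexity.Sieve
import Vale.Agent.P015.LowComplexity.Levels

/-!
# Prime-free disks along curves of low complexity
-/

namespace Vale.Agent.P015.LowComplexity

open Finset

/-- The exponents of the scales. -/
noncomputable def expo (c : ℝ) : ℕ → ℝ
  | 0 => 0
  | j + 1 => c * expo c j + 1

lemma expo_nonneg {c : ℝ} (hc : 0 ≤ c) : ∀ j, 0 ≤ expo c j
  | 0 => le_rfl
  | j + 1 => by
    have := mul_nonneg hc (expo_nonneg hc j)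
    simp only [expo]; linarith

lemma expo_one_le {c : ℝ} (hc : 0 ≤ c) (j : ℕ) : 1 ≤ expo c (j + 1) := by
  have := mul_nonneg hc (expo_nonneg hc j)
  simp only [expo]; linarith

lemma expo_le_succ {c : ℝ} (hc : 0 ≤ c) : ∀ j, expo c j ≤ expo c (j + 1)
  | 0 => zero_le_one.trans (expo_one_le hc 0)
  | j + 1 => by
    have := mul_le_mul_of_nonneg_left (expo_le_succ hc j) hc
    simp only [expo] at this ⊢
    linarith

lemma expo_eq (c : ℝ) : ∀ j, expo c j = ∑ m ∈ range j, c ^ m
  | 0 => by simp [expo]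
  | j + 1 => by rw [geom_sum_succ, ← expo_eq c j, expo]

/-- The total weight of the levels. -/
noncomputable def total (c : ℝ) (k : ℕ) : ℝ := ∑ l ∈ range k, 1 / expo c (l + 1)

lemma total_eq (c : ℝ) (k : ℕ) :
    total c k = ∑ l ∈ range k, 1 / ∑ m ∈ range (l + 1), c ^ m := by
  simp only [total, expo_eq]

lemma scale_le {C c : ℝ} (hC : 1 ≤ C) (hc : 0 ≤ c) {L : ℕ} (hL : 1 ≤ L) {j : ℕ} :
    ∃ E : ℝ, 1 ≤ E ∧ ∀ M : ℕ, 1 ≤ M → (scale C c L M j : ℝ) ≤ E * (M : ℝ) ^ expo c j := by
  induction j with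
  | zero => exact ⟨L, by exact_mod_cast hL, fun M _ => by simp [scale, expo]⟩
  | succ j ih =>
    obtain ⟨E, hE, h⟩ := ih
    refine ⟨E + (C * E ^ c + 1),
      by linarith [mul_nonneg (le_trans zero_le_one hC) (Real.rpow_nonneg (zero_le_one.trans hE) c)],
      fun M hM => ?_⟩
    have hM' : (1 : ℝ) ≤ M := by exact_mod_cast hM
    have hn := h M hM
    have h0 := expo_nonneg hc j
    have hpow : (scale C c L M j : ℝ) ^ c ≤ E ^ c * (M : ℝ) ^ (c * expo c j) := by
      refine (Real.rpow_le_rpow (Nat.cast_nonneg _) hn hc).trans (le_of_eq ?_)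
      rw [Real.mul_rpow (by linarith) (Real.rpow_nonneg (by linarith) _),
        ← Real.rpow_mul (by linarith), mul_comm (expo c j)]
    have hpow0 : 0 ≤ C * (scale C c L M j : ℝ) ^ c :=
      mul_nonneg (by linarith) (Real.rpow_nonneg (Nat.cast_nonneg _) _)
    have hceil := (Nat.ceil_lt_add_one hpow0).le
    have hsplit : (M : ℝ) ^ expo c (j + 1) = (M : ℝ) ^ (c * expo c j) * M := by
      rw [expo, Real.rpow_add (by linarith), Real.rpow_one]
    have h1 : (M : ℝ) ^ expo c j ≤ (M : ℝ) ^ expo c (j + 1) :=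
      Real.rpow_le_rpow_of_exponent_le hM' (expo_le_succ hc j)
    have h2 : (1 : ℝ) ≤ (M : ℝ) ^ (c * expo c j) := Real.one_le_rpow hM' (mul_nonneg hc h0)
    have h3 : (M : ℝ) * (⌈C * (scale C c L M j : ℝ) ^ c⌉₊ : ℝ) ≤
        (C * E ^ c + 1) * (M : ℝ) ^ expo c (j + 1) := by
      rw [hsplit]
      have := mul_le_mul_of_nonneg_left hpow (zero_le_one.trans hC)
      calc (M : ℝ) * (⌈C * (scale C c L M j : ℝ) ^ c⌉₊ : ℝ)
          ≤ M * (C * (E ^ c * (M : ℝ) ^ (c * expo c j)) + (M : ℝ) ^ (c * expo c j)) :=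
            mul_le_mul_of_nonneg_left (by linarith) (by linarith)
        _ = _ := by ring
    have h4 := mul_le_mul_of_nonneg_left h1 (zero_le_one.trans hE)
    simp only [scale]
    push_cast
    rw [add_mul]
    linarith

lemma dist_le {z : ℕ → GaussianInt} {N : ℕ} {D : ℝ}
    (h : ∀ i < N, ‖GaussianInt.toComplex (z (i + 1)) - GaussianInt.toComplex (z i)‖ ≤ D) :
    ∀ i ≤ N, ∀ j ≤ N,
      ‖GaussianInt.toComplex (z i - z j)‖ ≤ max D 0 * |((i : ℕ) : ℝ) - ((j : ℕ) : ℝ)| := by
  have key : ∀ k j, j + k ≤ N →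
      ‖GaussianInt.toComplex (z (j + k) - z j)‖ ≤ max D 0 * k := by
    intro k
    induction k with
    | zero => intro j _; simp
    | succ k ih =>
      intro j hj
      rw [show z (j + (k + 1)) - z j = (z (j + k + 1) - z (j + k)) + (z (j + k) - z j) by
        rw [← add_assoc]; ring, map_add]
      refine (norm_add_le _ _).trans ?_
      have h1 := h (j + k) (by omega)
      rw [← map_sub] at h1
      push_cast
      linarith [ih j (by omega), le_max_left D 0]
  intro i hi j hj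
  rcases le_total j i with hle | hle
  · obtain ⟨k, rfl⟩ := Nat.exists_eq_add_of_le hle
    push_cast
    rw [add_sub_cancel_left, Nat.abs_cast]
    exact key k j hi
  · obtain ⟨k, rfl⟩ := Nat.exists_eq_add_of_le hle
    push_cast
    rw [show (i : ℝ) - (i + k) = -(k : ℝ) by ring, abs_neg, Nat.abs_cast, ← norm_neg, ← map_neg,
      neg_sub]
    exact key k i hj

lemma shapes_shift_subset {y : ℕ → GaussianInt} {i L N n : ℕ} (h : i + L ≤ N) :
    shapes (fun t => y (i + t)) n L ⊆ shapes y n N := by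
  intro w hw
  simp only [shapes, mem_image, mem_range] at hw ⊢
  obtain ⟨a, ha, rfl⟩ := hw
  exact ⟨i + a, by omega, funext fun t => by simp [shape, add_assoc]⟩

/-- Curves of low complexity pass, in every long window, a point all of whose translates by a given
finite set have small split prime divisors. -/
theorem exists_kill (D C c β : ℝ) (hc : 0 ≤ c) (hβ : 0 ≤ β) (k : ℕ) (hk : 2 * β < total c k)
    (F : Finset GaussianInt) :
    ∃ N : ℕ, 1 ≤ N ∧ ∀ y : ℕ → GaussianInt, Set.InjOn y (Set.Iic N) →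
      (∀ i ≤ N, ∀ j ≤ N,
        ‖GaussianInt.toComplex (y i - y j)‖ ≤ D * |((i : ℕ) : ℝ) - ((j : ℕ) : ℝ)| ^ β) →
      (∀ n, 1 ≤ n → n ≤ N → ((shapes y n N).card : ℝ) ≤ C * (n : ℝ) ^ c) →
      ∃ a ≤ N, ∀ ε ∈ F, ∃ p ∈ splitPrimes N, ∃ b, res p b (y a + ε) = 0 := by
  classical
  induction F using Finset.induction_on with
  | empty => exact ⟨1, le_rfl, fun y _ _ _ => ⟨0, by omega, by simp⟩⟩
  | insert ε F _ ih =>
  obtain ⟨L, hL, hgoodL⟩ := ih
  set Q := L.factorial with hQ
  haveI : NeZero Q := ⟨L.factorial_ne_zero⟩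
  set κ : GaussianInt → ZMod Q × ZMod Q := fun w => ((w.re : ZMod Q), (w.im : ZMod Q)) with hκ
  set G : GaussianInt → Prop :=
    fun x => ∀ e ∈ F, ∃ p ∈ splitPrimes L, ∃ b, res p b (x + e) = 0 with hGdef
  have hG : ∀ a b x, κ a = κ b → G x → G (x + (a - b)) := by
    intro a b x hab hx e he
    obtain ⟨p, hp, β, hβ⟩ := hx e he
    have hdvd : (p : ℤ) ∣ (Q : ℤ) := Int.natCast_dvd_natCast.2
      (Nat.dvd_factorial (mem_splitPrimes.1 hp).2.1.pos (mem_splitPrimes.1 hp).1)
    simp only [hκ, Prod.mk.injEq, ZMod.intCast_eq_intCast_iff_dvd_sub] at hab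
    have h1 := (ZMod.intCast_eq_intCast_iff_dvd_sub _ _ p).2 (hdvd.trans hab.1)
    have h2 := (ZMod.intCast_eq_intCast_iff_dvd_sub _ _ p).2 (hdvd.trans hab.2)
    refine ⟨p, hp, β, ?_⟩
    rw [show x + (a - b) + e = (x + e) + (a - b) by ring, map_add, hβ, zero_add, map_sub,
      sub_eq_zero]
    show (a.re : ZMod p) + _ * (a.im : ZMod p) = (b.re : ZMod p) + _ * (b.im : ZMod p)
    rw [h1, h2]
  have hQ1 : (1 : ℝ) ≤ (Fintype.card (ZMod Q × ZMod Q) : ℝ) := by
    exact_mod_cast Fintype.card_pos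
  set C' := max C 1 * (Fintype.card (ZMod Q × ZMod Q) : ℝ) with hC'
  have hC1 : 1 ≤ C' := one_le_mul_of_one_le_of_one_le (le_max_right _ _) hQ1
  obtain ⟨K, hK⟩ := split_log_sum_lower
  choose E hE1 hE using fun j => scale_le hC1 hc hL (j := j)
  set d := max D 1 with hd
  have hd1 : 1 ≤ d := le_max_right _ _
  have htot : 0 < total c k := by linarith
  have hk0 : k ≠ 0 := by rintro rfl; simp [total] at htot
  set η := (total c k - 2 * β) / (2 * (2 * β + 1)) with hη
  have hη0 : 0 < η := div_pos (by linarith) (by linarith)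
  obtain ⟨P0, hP0⟩ := exists_nat_gt ((k : ℝ) / η)
  -- the loss from the small primes
  set K0 := ∑ p ∈ splitPrimes P0, 2 * (Real.log p / p) with hK0
  set cst := ∑ l ∈ range k, (1 / expo c (l + 1)) ^ 2 *
    (2 * Real.log d + 2 * β * Real.log (E (l + 1)) + 2 * Real.log 4) with hcst
  set gain := total c k ^ 2 / (1 + η) - 2 * β * total c k with hgain
  have hgain0 : 0 < gain := by
    rw [hgain, sub_pos, lt_div_iff₀ (by linarith)]
    have h : η * (2 * (2 * β + 1)) = total c k - 2 * β := by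
      rw [hη, div_mul_cancel₀]; linarith
    have h2 : 2 * β * (1 + η) < total c k := by nlinarith
    nlinarith [mul_lt_mul_of_pos_left h2 htot]
  obtain ⟨M0, hM0⟩ := exists_nat_gt
    (Real.exp ((cst + total c k ^ 2 / (1 + η) * (K + K0)) / gain))
  set M := max M0 2 with hM
  have hM2 : 2 ≤ M := le_max_right _ _
  set N := scale C' c L M k with hN
  have hLN : L ≤ N := scale_mono C' c L M (Nat.zero_le k)
  refine ⟨N, hL.trans hLN, fun z hinj hstep hlow0 => ?_⟩
  by_contra hno
  push Not at hno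
  have hlow : ∀ n, 1 ≤ n → n ≤ N →
      ((shapes z n N).card : ℝ) * Fintype.card (ZMod Q × ZMod Q) ≤ C' * (n : ℝ) ^ c :=
    fun n h1 h2 => by
      rw [hC', mul_right_comm]
      exact mul_le_mul_of_nonneg_right ((hlow0 n h1 h2).trans (mul_le_mul_of_nonneg_right
        (le_max_left _ _) (Real.rpow_nonneg (Nat.cast_nonneg _) _))) (Nat.cast_nonneg _)
  have hgood : ∀ i, i + L ≤ N → ∃ a ≤ L, G (z (i + a)) := fun i hi => by
    refine hgoodL (fun t => z (i + t)) (fun a ha b hb hab => ?_)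
      (fun a ha b hb => by
        simpa [Nat.cast_add, add_sub_add_left_eq_sub] using
          hstep (i + a) (by omega) (i + b) (by omega)) fun n h1 h2 => ?_
    · simp only [Set.mem_Iic] at ha hb
      have := hinj (show i + a ∈ Set.Iic N by simp only [Set.mem_Iic]; omega)
        (show i + b ∈ Set.Iic N by simp only [Set.mem_Iic]; omega) hab
      omega
    · exact le_trans (by exact_mod_cast card_le_card (shapes_shift_subset hi))
        (hlow0 n h1 (by omega))
  have hdist : ∀ i ≤ N, ∀ j ≤ N, ‖GaussianInt.toComplex (z i - z j)‖ ≤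
      d * |((i : ℕ) : ℝ) - ((j : ℕ) : ℝ)| ^ β := fun i hi j hj =>
    (hstep i hi j hj).trans (mul_le_mul_of_nonneg_right (le_max_left _ _)
      (Real.rpow_nonneg (abs_nonneg _) _))
  obtain ⟨x, U, hU1, hU2, hU3⟩ := exists_levels κ G hG hL hgood hdist (by linarith) hβ hinj
    (by omega : 1 ≤ M) hlow k 0 (by rw [← hN]; omega)
  have hMN : M ≤ N := by
    have h1 : 1 ≤ ⌈C' * (scale C' c L M 0 : ℝ) ^ c⌉₊ := by
      refine Nat.one_le_ceil_iff.2 (mul_pos (by linarith) (Real.rpow_pos_of_pos ?_ _))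
      simp only [scale]
      exact_mod_cast hL
    calc M = M * 1 := (mul_one M).symm
      _ ≤ scale C' c L M 1 := (Nat.mul_le_mul_left M h1).trans (Nat.le_add_left _ _)
      _ ≤ N := scale_mono _ _ _ _ (show 1 ≤ k by omega)
  set P := (splitPrimes M).filter fun p => P0 < p with hP
  have hPs : ∀ p ∈ P, p.Prime ∧ p % 4 = 1 := fun p hp => (mem_splitPrimes.1 (mem_filter.1 hp).1).2
  have hUne : ∀ l < k, (U l).Nonempty := fun l hl => card_pos.1 (by have := hU1 l hl; omega)
  -- every prime of the window: the residues of the levels are few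
  have hres : ∀ i ∈ P ×ˢ (univ : Finset Bool),
      ∑ l ∈ range k, (((U l).image (res i.1 i.2)).card : ℝ) ≤ (1 + η) * (i.1 : ℝ) := by
    rintro ⟨p, b⟩ hi
    have hp := (mem_product.1 hi).1
    obtain ⟨hpp, h4⟩ := hPs p hp
    haveI : Fact p.Prime := ⟨hpp⟩
    have hpM : p ≤ M := (mem_splitPrimes.1 (mem_filter.1 hp).1).1
    have hpP0 : P0 < p := (mem_filter.1 hp).2
    set R : ℕ → Finset (ZMod p) := fun l => (U l).image (res p b) with hR
    have hlt : (sumset R k).card < p := by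
      have hnot : -res p b (x + ε) ∉ sumset R k := by
        intro hmem
        obtain ⟨v, hv, hv'⟩ := mem_sumset_image k _ hmem
        obtain ⟨a, ha, hza, hga⟩ := hU3 v hv
        have ha' : 0 + a ≤ N := by rw [hN]; omega
        have hzero : res p b (z (0 + a) + ε) = 0 := by
          rw [hza, add_right_comm, map_add, hv', add_neg_cancel]
        obtain ⟨e, he, hne⟩ := hno (0 + a) ha'
        rcases mem_insert.1 he with rfl | he
        · exact hne p (mem_splitPrimes.2 ⟨hpM.trans hMN, hpp, h4⟩) b hzero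
        · obtain ⟨q, hq, β, hβ⟩ := hga e he
          exact hne q (mem_splitPrimes.2 ⟨(mem_splitPrimes.1 hq).1.trans hLN,
            (mem_splitPrimes.1 hq).2⟩) β hβ
      have := card_lt_univ_of_notMem hnot
      rwa [ZMod.card] at this
    have h := sum_card_le_of_sumset (R := R) hpp k (fun l hl => (hUne l hl).image _) hlt
    have h' : (∑ l ∈ range k, (R l).card) ≤ p + k := by omega
    have h'' : ((∑ l ∈ range k, (R l).card : ℕ) : ℝ) ≤ (p : ℝ) + k := by exact_mod_cast h'
    have hp' : (P0 : ℝ) < p := by exact_mod_cast hpP0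
    have hk' : (k : ℝ) ≤ η * p := by
      rw [div_lt_iff₀ hη0] at hP0
      linarith [mul_lt_mul_of_pos_right hp' hη0, mul_comm η (p : ℝ)]
    push_cast at h''
    show ∑ l ∈ range k, (((U l).image (res p b)).card : ℝ) ≤ (1 + η) * (p : ℝ)
    linarith
  -- the sieve bound on every level
  have hsieve : ∀ l < k, ∑ i ∈ P ×ˢ (univ : Finset Bool),
      Real.log i.1 / (((U l).image (res i.1 i.2)).card : ℝ) ≤
      2 * Real.log d + 2 * β * Real.log (E (l + 1)) + 2 * β * expo c (l + 1) * Real.log M + 2 * Real.log 4 := by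
    intro l hl
    have hs1 : (1 : ℝ) ≤ (scale C' c L M (l + 1) : ℝ) := by
      exact_mod_cast one_le_scale C' c hL M (l + 1)
    have hL1 : (1 : ℝ) ≤ (d * (scale C' c L M (l + 1) : ℝ) ^ β) ^ 2 :=
      one_le_pow₀ (one_le_mul_of_one_le_of_one_le hd1 (Real.one_le_rpow hs1 hβ))
    refine (larger_sieve P hPs (U l) (hUne l hl) _ hL1 (hU2 l hl)).trans ?_
    have hMr : (1 : ℝ) ≤ M := by exact_mod_cast (show 1 ≤ M by omega)
    have hlogs : Real.log ((d * (scale C' c L M (l + 1) : ℝ) ^ β) ^ 2) ≤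
        2 * Real.log d + 2 * β * Real.log (E (l + 1)) + 2 * β * expo c (l + 1) * Real.log M := by
      rw [Real.log_pow, Real.log_mul (by linarith)
        (Real.rpow_pos_of_pos (by linarith) _).ne', Real.log_rpow (by linarith) β]
      have h := Real.log_le_log (by linarith) (hE (l + 1) M (by omega))
      rw [Real.log_mul (by linarith [hE1 (l + 1)]) (Real.rpow_pos_of_pos (by linarith) _).ne',
        Real.log_rpow (by linarith)] at h
      have := mul_le_mul_of_nonneg_left h hβ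
      push_cast
      linarith
    have htheta : ∑ p ∈ P, 2 * Real.log p ≤ 2 * Real.log 4 * M := by
      rw [← Finset.mul_sum]
      have h := Chebyshev.theta_le_log4_mul_x (show (0 : ℝ) ≤ M by linarith)
      rw [Chebyshev.theta, Nat.floor_natCast] at h
      have hsub : P ⊆ (Finset.Ioc 0 M).filter Nat.Prime := fun p hp => by
        have h1 := mem_splitPrimes.1 (mem_filter.1 hp).1
        exact mem_filter.2 ⟨Finset.mem_Ioc.2 ⟨h1.2.1.pos, h1.1⟩, h1.2.1⟩
      have := sum_le_sum_of_subset_of_nonneg (f := fun p : ℕ => Real.log p) hsub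
        fun p _ _ => Real.log_natCast_nonneg p
      linarith
    have hcard : (M : ℝ) ≤ (U l).card := by exact_mod_cast hU1 l hl
    refine add_le_add hlogs ?_
    rw [div_le_iff₀ (by linarith)]
    exact htheta.trans (mul_le_mul_of_nonneg_left hcard
      (mul_nonneg two_pos.le (Real.log_nonneg (by norm_num))))
  -- Cauchy-Schwarz at every prime
  have hcs : ∀ i ∈ P ×ˢ (univ : Finset Bool), total c k ^ 2 / (1 + η) * (Real.log i.1 / (i.1 : ℝ)) ≤
      ∑ l ∈ range k, (1 / expo c (l + 1)) ^ 2 *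
        (Real.log i.1 / (((U l).image (res i.1 i.2)).card : ℝ)) := by
    intro i hi
    obtain ⟨hpp, -⟩ := hPs i.1 (mem_product.1 hi).1
    have hp0 : (0 : ℝ) < i.1 := by exact_mod_cast hpp.pos
    have hpos : ∀ l ∈ range k, (0 : ℝ) < (((U l).image (res i.1 i.2)).card : ℝ) := fun l hl => by
      exact_mod_cast ((hUne l (mem_range.1 hl)).image _).card_pos
    have h := sq_sum_div_le_sum_sq_div (range k) (fun l => 1 / expo c (l + 1)) hpos
    have hs := hres i hi
    have hsum0 : 0 < ∑ l ∈ range k, (((U l).image (res i.1 i.2)).card : ℝ) :=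
      sum_pos hpos (by simpa using hk0)
    have h2 : total c k ^ 2 / ((1 + η) * (i.1 : ℝ)) ≤
        ∑ l ∈ range k, (1 / expo c (l + 1)) ^ 2 / (((U l).image (res i.1 i.2)).card : ℝ) :=
      (div_le_div_of_nonneg_left (sq_nonneg _) hsum0 hs).trans h
    have h3 := mul_le_mul_of_nonneg_left h2 (Real.log_natCast_nonneg i.1)
    rw [Finset.mul_sum] at h3
    calc total c k ^ 2 / (1 + η) * (Real.log i.1 / (i.1 : ℝ))
        = Real.log i.1 * (total c k ^ 2 / ((1 + η) * (i.1 : ℝ))) := by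
          field_simp
      _ ≤ _ := h3.trans (le_of_eq (sum_congr rfl fun l _ => by ring))
  have hweight : Real.log M - K - K0 ≤ ∑ i ∈ P ×ˢ (univ : Finset Bool), Real.log i.1 / (i.1 : ℝ) := by
    rw [sum_product]
    have e : ∀ p ∈ P, ∑ _b : Bool, Real.log p / (p : ℝ) = 2 * (Real.log p / p) := fun p _ => by
      simp
    rw [sum_congr rfl e]
    have hrest : ∑ p ∈ (splitPrimes M).filter (fun p => ¬ P0 < p), 2 * (Real.log p / p) ≤ K0 := by
      refine sum_le_sum_of_subset_of_nonneg (fun p hp => ?_) fun p _ _ =>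
        mul_nonneg two_pos.le (div_nonneg (Real.log_natCast_nonneg p) (Nat.cast_nonneg p))
      simp only [mem_filter, mem_splitPrimes] at hp ⊢
      exact ⟨by omega, hp.1.2⟩
    have := sum_filter_add_sum_filter_not (splitPrimes M) (fun p => P0 < p)
      (fun p => 2 * (Real.log p / p))
    rw [hP]
    linarith [hK M (by omega)]
  have h1 := mul_le_mul_of_nonneg_left hweight (div_nonneg (sq_nonneg (total c k)) (show (0 : ℝ) ≤ 1 + η by linarith))
  rw [Finset.mul_sum] at h1
  have h2 := h1.trans (sum_le_sum hcs)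
  rw [sum_comm] at h2
  simp only [← Finset.mul_sum] at h2
  have h3 := h2.trans (sum_le_sum fun l hl => mul_le_mul_of_nonneg_left (hsieve l (mem_range.1 hl))
    (sq_nonneg (1 / expo c (l + 1))))
  have h4 : ∑ l ∈ range k, (1 / expo c (l + 1)) ^ 2 *
      (2 * Real.log d + 2 * β * Real.log (E (l + 1)) + 2 * β * expo c (l + 1) * Real.log M + 2 * Real.log 4) =
      cst + 2 * β * total c k * Real.log M := by
    rw [hcst, total, Finset.mul_sum, Finset.sum_mul, ← sum_add_distrib]
    refine sum_congr rfl fun l _ => ?_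
    have : expo c (l + 1) ≠ 0 := (zero_lt_one.trans_le (expo_one_le hc l)).ne'
    field_simp
    ring
  rw [h4] at h3
  have h5 : gain * Real.log M ≤ cst + total c k ^ 2 / (1 + η) * (K + K0) := by
    rw [hgain]; linarith
  have h6 : (cst + total c k ^ 2 / (1 + η) * (K + K0)) / gain < Real.log M := by
    have hM0' : (M0 : ℝ) ≤ M := by exact_mod_cast le_max_left M0 2
    rw [Real.lt_log_iff_exp_lt (by exact_mod_cast (show 0 < M by omega))]
    linarith
  rw [div_lt_iff₀ hgain0] at h6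
  linarith

lemma finite_norm_le (B : ℤ) : {w : GaussianInt | w.norm ≤ B}.Finite := by
  refine Set.Finite.subset (((Set.finite_Icc (-B) B).prod (Set.finite_Icc (-B) B)).image
    fun p : ℤ × ℤ => (⟨p.1, p.2⟩ : GaussianInt)) fun w hw => ?_
  have hw' : w.re * w.re + w.im * w.im ≤ B := by simpa [norm_eq_sq] using hw
  refine ⟨(w.re, w.im), ⟨⟨?_, ?_⟩, ?_, ?_⟩, rfl⟩ <;>
    nlinarith [mul_self_nonneg w.re, mul_self_nonneg w.im, mul_self_nonneg (w.re - 1),
      mul_self_nonneg (w.re + 1), mul_self_nonneg (w.im - 1), mul_self_nonneg (w.im + 1)]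

/-- Prime-free disks centred on every curve whose windows of length `n` have at most `C n ^ c`
shapes and diameter at most `D n ^ β`. -/
theorem exists_disk_general (D C c β R : ℝ) (hc : 0 ≤ c) (hβ : 0 ≤ β) (k : ℕ)
    (hk : 2 * β < total c k) :
    ∃ N : ℕ, ∀ y : ℕ → GaussianInt, Set.InjOn y (Set.Iic N) →
    (∀ i ≤ N, ∀ j ≤ N, ‖GaussianInt.toComplex (y i) - GaussianInt.toComplex (y j)‖ ≤
      D * |((i : ℕ) : ℝ) - ((j : ℕ) : ℝ)| ^ β) →
    (∀ n, 1 ≤ n → n ≤ N → ((shapes y n N).card : ℝ) ≤ C * (n : ℝ) ^ c) →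
    ∃ a ≤ N, ∀ w : GaussianInt, Prime w → (N : ℤ) < w.norm →
      R < ‖GaussianInt.toComplex w - GaussianInt.toComplex (y a)‖ := by
  obtain ⟨N, -, hN⟩ := exists_kill D C c β hc hβ k hk (finite_norm_le ⌈R ^ 2⌉).toFinset
  refine ⟨N, fun y hinj hstep hlow => ?_⟩
  obtain ⟨a, ha, hkill⟩ := hN y hinj (fun i hi j hj => by rw [map_sub]; exact hstep i hi j hj) hlow
  refine ⟨a, ha, fun w hw hwN => not_le.1 fun hle => ?_⟩
  have hmem : w - y a ∈ (finite_norm_le ⌈R ^ 2⌉).toFinset := by
    rw [Set.Finite.mem_toFinset, Set.mem_ofPred_eq]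
    have h : (((w - y a).norm : ℤ) : ℝ) ≤ R ^ 2 := by
      rw [GaussianInt.intCast_real_norm, Complex.normSq_eq_norm_sq, map_sub]
      exact pow_le_pow_left₀ (norm_nonneg _) hle 2
    exact_mod_cast h.trans (Int.le_ceil _)
  obtain ⟨p, hp, b, hb⟩ := hkill _ hmem
  rw [add_sub_cancel] at hb
  obtain ⟨hpN, hpp, h4⟩ := mem_splitPrimes.1 hp
  have := prime_norm_eq hw hpp h4 (dvd_norm_of_res_eq_zero hpp h4 hb)
  omega

lemma total_seven_fifths : 2 * (1 : ℝ) < total (7 / 5) 10 := by
  simp only [total, sum_range_succ, sum_range_zero, expo]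
  norm_num

/-- Prime-free disks centred on every curve of complexity `O(n^{7/5})`. -/
theorem exists_disk (D C R : ℝ) : ∃ N : ℕ, ∀ y : ℕ → GaussianInt, Set.InjOn y (Set.Iic N) →
    (∀ i < N, ‖GaussianInt.toComplex (y (i + 1)) - GaussianInt.toComplex (y i)‖ ≤ D) →
    (∀ n, 1 ≤ n → n ≤ N → ((shapes y n N).card : ℝ) ≤ C * (n : ℝ) ^ (7 / 5 : ℝ)) →
    ∃ a ≤ N, ∀ w : GaussianInt, Prime w → (N : ℤ) < w.norm →
      R < ‖GaussianInt.toComplex w - GaussianInt.toComplex (y a)‖ := by
  obtain ⟨N, hN⟩ := exists_disk_general (max D 0) C (7 / 5) 1 R (by norm_num) zero_le_one 10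
    total_seven_fifths
  refine ⟨N, fun y hinj hstep hlow => hN y hinj (fun i hi j hj => ?_) hlow⟩
  rw [Real.rpow_one, ← map_sub]
  exact dist_le hstep i hi j hj

/-- No infinite prime path has windows of `O(n^c)` shapes and diameter `O(n^β)`. -/
theorem no_path_general (D C c β : ℝ) (hc : 0 ≤ c) (hβ : 0 ≤ β) (k : ℕ) (hk : 2 * β < total c k) :
    ¬ ∃ z : ℕ → GaussianInt, Function.Injective z ∧ (∀ i, Prime (z i)) ∧
      (∀ i j : ℕ, ‖GaussianInt.toComplex (z i) - GaussianInt.toComplex (z j)‖ ≤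
        D * |(i : ℝ) - (j : ℝ)| ^ β) ∧
      (∀ n N : ℕ, 1 ≤ n → ((shapes z n N).card : ℝ) ≤ C * (n : ℝ) ^ c) := by
  rintro ⟨z, hinj, hp, hstep, hlow⟩
  obtain ⟨N, hN⟩ := exists_disk_general D C c β 0 hc hβ k hk
  obtain ⟨i0, hi0⟩ := ((finite_norm_le (N : ℤ)).preimage hinj.injOn).bddAbove
  have hdiam : ∀ u ≤ N, ∀ v ≤ N,
      ‖GaussianInt.toComplex (z (i0 + 1 + u)) - GaussianInt.toComplex (z (i0 + 1 + v))‖ ≤
        D * |((u : ℕ) : ℝ) - ((v : ℕ) : ℝ)| ^ β := fun u _ v _ => by
    have := hstep (i0 + 1 + u) (i0 + 1 + v)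
    push_cast at this
    rwa [add_sub_add_left_eq_sub] at this
  obtain ⟨a, -, ha⟩ := hN (fun i => z (i0 + 1 + i))
    (fun a _ b _ hab => Nat.add_left_cancel (hinj hab)) hdiam
    (fun n h1 _ => le_trans (by exact_mod_cast card_le_card (shapes_shift_subset le_rfl))
      (hlow n (i0 + 1 + N) h1))
  have h := ha (z (i0 + 1 + a)) (hp _) (not_le.1 fun hle => by
    have := hi0 (show i0 + 1 + a ∈ z ⁻¹' {w : GaussianInt | w.norm ≤ (N : ℤ)} from hle)
    omega)
  simp at h

/-- No infinite prime path with bounded steps has complexity `O(n^{7/5})`. -/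
theorem no_path_low_complexity (D C : ℝ) :
    ¬ ∃ z : ℕ → GaussianInt, Function.Injective z ∧ (∀ i, Prime (z i)) ∧
      (∀ i, ‖GaussianInt.toComplex (z (i + 1)) - GaussianInt.toComplex (z i)‖ ≤ D) ∧
      (∀ n N : ℕ, 1 ≤ n → ((shapes z n N).card : ℝ) ≤ C * (n : ℝ) ^ (7 / 5 : ℝ)) := by
  rintro ⟨z, hinj, hp, hstep, hlow⟩
  obtain ⟨N, hN⟩ := exists_disk D C 0
  obtain ⟨i0, hi0⟩ := ((finite_norm_le (N : ℤ)).preimage hinj.injOn).bddAbove
  obtain ⟨a, -, ha⟩ := hN (fun i => z (i0 + 1 + i))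
    (fun a _ b _ hab => Nat.add_left_cancel (hinj hab))
    (fun i _ => by simpa [add_assoc] using hstep (i0 + 1 + i))
    (fun n h1 _ => le_trans (by exact_mod_cast card_le_card (shapes_shift_subset le_rfl))
      (hlow n (i0 + 1 + N) h1))
  have h := ha (z (i0 + 1 + a)) (hp _) (not_le.1 fun hle => by
    have := hi0 (show i0 + 1 + a ∈ z ⁻¹' {w : GaussianInt | w.norm ≤ (N : ℤ)} from hle)
    omega)
  simp at h

/-- No infinite prime path stays within a bounded distance of a uniformly proper curve of complexity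
`O(n^{7/5})`. -/
theorem no_path_in_corridor (D D' C W : ℝ) :
    ¬ ∃ y z : ℕ → GaussianInt, Function.Injective y ∧
      (∀ i, ‖GaussianInt.toComplex (y (i + 1)) - GaussianInt.toComplex (y i)‖ ≤ D) ∧
      (∀ n N : ℕ, 1 ≤ n → ((shapes y n N).card : ℝ) ≤ C * (n : ℝ) ^ (7 / 5 : ℝ)) ∧
      (∀ R : ℝ, ∃ B : ℕ, ∀ i j,
        ‖GaussianInt.toComplex (y i) - GaussianInt.toComplex (y j)‖ ≤ R → i ≤ j + B) ∧
      Function.Injective z ∧ (∀ k, Prime (z k)) ∧
      (∀ k, ‖GaussianInt.toComplex (z (k + 1)) - GaussianInt.toComplex (z k)‖ ≤ D') ∧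
      (∀ k, ∃ i, ‖GaussianInt.toComplex (z k) - GaussianInt.toComplex (y i)‖ ≤ W) := by
  rintro ⟨y, z, hy, hystep, hlow, hproper, hz, hp, hzstep, hnear⟩
  choose σ hσ using hnear
  obtain ⟨B, hB⟩ := hproper (W + D' + W)
  obtain ⟨N, hN⟩ := exists_disk D C (max D 0 * B + W)
  obtain ⟨k0, hk0⟩ := ((finite_norm_le (N : ℤ)).preimage hz.injOn).bddAbove
  set k1 := k0 + 1 with hk1
  obtain ⟨a, -, ha⟩ := hN (fun t => y (σ k1 + t)) (fun a _ b _ hab => Nat.add_left_cancel (hy hab))
    (fun i _ => by simpa [add_assoc] using hystep (σ k1 + i))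
    (fun n h1 _ => le_trans (by exact_mod_cast card_le_card (shapes_shift_subset le_rfl))
      (hlow n (σ k1 + N) h1))
  set i := σ k1 + a with hi
  have hunb : ∃ t, i < σ (k1 + t) := by
    by_contra hall
    push Not at hall
    refine Set.infinite_range_of_injective (f := fun t => z (k1 + t))
      (fun u v huv => Nat.add_left_cancel (hz huv)) ?_
    refine ((Set.finite_Iic i).biUnion fun s _ =>
      (finite_norm_le ⌈W ^ 2⌉).image fun e => y s + e).subset ?_
    rintro _ ⟨t, rfl⟩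
    refine Set.mem_biUnion (Set.mem_Iic.2 (hall t))
      ⟨z (k1 + t) - y (σ (k1 + t)), ?_, add_sub_cancel _ _⟩
    rw [Set.mem_ofPred_eq]
    have h : (((z (k1 + t) - y (σ (k1 + t))).norm : ℤ) : ℝ) ≤ W ^ 2 := by
      rw [GaussianInt.intCast_real_norm, Complex.normSq_eq_norm_sq, map_sub]
      exact pow_le_pow_left₀ (norm_nonneg _) (hσ _) 2
    exact_mod_cast h.trans (Int.le_ceil _)
  obtain ⟨k, hk, hki, hik⟩ : ∃ k, k1 ≤ k ∧ σ k ≤ i ∧ i < σ (k + 1) := by
    classical
    have ht := Nat.find_spec hunb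
    rcases h : Nat.find hunb with _ | t
    · rw [h, add_zero] at ht; omega
    · rw [h] at ht
      exact ⟨k1 + t, by omega, not_lt.1 (Nat.find_min hunb (by omega)), by rwa [add_assoc]⟩
  have hjump : σ (k + 1) ≤ σ k + B := hB _ _ (by
    have h1 := hσ (k + 1)
    have h2 := hσ k
    have h3 := hzstep k
    rw [norm_sub_rev] at h1
    linarith [norm_sub_le_norm_sub_add_norm_sub (GaussianInt.toComplex (y (σ (k + 1))))
        (GaussianInt.toComplex (z (k + 1))) (GaussianInt.toComplex (y (σ k))),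
      norm_sub_le_norm_sub_add_norm_sub (GaussianInt.toComplex (z (k + 1)))
        (GaussianInt.toComplex (z k)) (GaussianInt.toComplex (y (σ k)))])
  have h := ha (z k) (hp k) (not_le.1 fun hle => by
    have := hk0 (show k ∈ z ⁻¹' {w : GaussianInt | w.norm ≤ (N : ℤ)} from hle)
    omega)
  have h4 := dist_le (z := y) (N := i) (D := D) (fun t _ => hystep t) (σ k) hki i le_rfl
  rw [map_sub] at h4
  have h5 : |((σ k : ℕ) : ℝ) - ((i : ℕ) : ℝ)| ≤ B := by
    have e1 : ((σ k : ℕ) : ℝ) ≤ i := by exact_mod_cast hki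
    have e2 : ((i : ℕ) : ℝ) ≤ σ k + B := by exact_mod_cast (show i ≤ σ k + B by omega)
    rw [abs_le]; constructor <;> linarith
  have h6 := mul_le_mul_of_nonneg_left h5 (le_max_right D 0)
  have h7 := norm_sub_le_norm_sub_add_norm_sub (GaussianInt.toComplex (z k))
    (GaussianInt.toComplex (y (σ k))) (GaussianInt.toComplex (y i))
  linarith [hσ k]

end Vale.Agent.P015.LowComplexity
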