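import Mathlib
import Vale.Agent.P015.LowComplexity.Main

/-!
# Prime-free disks centred on every line
-/

namespace Vale.Agent.P015.LowComplexity

open Finset

/-- The digital line of slope `α` and height `β`. -/
noncomputable def digital (α β : ℝ) (i : ℕ) : GaussianInt := ⟨(i : ℤ), ⌊α * i + β⌋⟩

/-- A digital line has at most `n + 2` windows of length `n`. -/
lemma digital_shapes_card (α β : ℝ) (n N : ℕ) :
    (shapes (digital α β) n N).card ≤ n + 2 := by
  classical
  set off : Fin (n + 1) → ℤ := fun a => ⌊(a : ℝ) * α⌋ with hoff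
  set val : ℝ → Fin (n + 1) → ℤ := fun x a => ⌊x + (a : ℝ) * α⌋ - off a with hval
  set fr : ℕ → ℝ := fun i => Int.fract (α * i + β) with hfr
  have him : ∀ i a, (shape (digital α β) n i a).im - off a = val (fr i) a := by
    intro i a
    simp only [shape, digital, Zsqrtd.im_sub, hval, hfr, Int.fract]
    rw [show α * (i : ℝ) + β - (⌊α * (i : ℝ) + β⌋ : ℝ) + (a : ℝ) * α =
      α * ((i + a : ℕ) : ℝ) + β - ((⌊α * (i : ℝ) + β⌋ : ℤ) : ℝ) by push_cast; ring,
      Int.floor_sub_intCast]
  have hmono : ∀ a, Monotone fun x => val x a := fun a x y h => by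
    simp only [hval]
    exact sub_le_sub_right (Int.floor_le_floor (by linarith)) _
  have hbound : ∀ i a, 0 ≤ val (fr i) a ∧ val (fr i) a ≤ 1 := fun i a => by
    have h0 := Int.fract_nonneg (α * (i : ℝ) + β)
    have h1 := Int.fract_lt_one (α * (i : ℝ) + β)
    simp only [hval, hoff]
    constructor
    · exact sub_nonneg.2 (Int.floor_le_floor (by simp only [hfr]; linarith))
    · rw [sub_le_iff_le_add, ← Int.floor_intCast_add]
      exact Int.floor_le_floor (by simp only [hfr]; push_cast; linarith)
  have hcard : (shapes (digital α β) n N).card ≤ (Finset.Icc (0 : ℤ) (n + 1)).card := by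
    refine card_le_card_of_injOn (fun v => ∑ a, ((v a).im - off a)) ?_ ?_
    · intro v hv
      simp only [shapes, Finset.mem_coe, mem_image, mem_range] at hv
      obtain ⟨i, -, rfl⟩ := hv
      simp only [him, Finset.mem_coe, Finset.mem_Icc]
      refine ⟨sum_nonneg fun a _ => (hbound i a).1, ?_⟩
      refine (sum_le_card_nsmul _ _ (1 : ℤ) fun a _ => (hbound i a).2).trans ?_
      simp
    · intro v hv w hw hvw
      simp only [shapes, Finset.mem_coe, mem_image, mem_range] at hv hw
      obtain ⟨i, -, rfl⟩ := hv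
      obtain ⟨j, -, rfl⟩ := hw
      simp only [him] at hvw
      have heq : ∀ a, val (fr i) a = val (fr j) a := by
        rcases le_total (fr i) (fr j) with h | h
        · exact fun a => (sum_eq_sum_iff_of_le fun b _ => hmono b h).1 hvw a (mem_univ a)
        · exact fun a => ((sum_eq_sum_iff_of_le fun b _ => hmono b h).1 hvw.symm a (mem_univ a)).symm
      funext a
      have h := heq a
      rw [← him, ← him, sub_left_inj] at h
      refine Zsqrtd.ext ?_ h
      simp [shape, digital]
  refine hcard.trans (le_of_eq ?_)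
  rw [Int.card_Icc]
  omega

lemma disk_line_flat (R : ℝ) {c u : ℂ} (hre : 0 < u.re) (him : |u.im| ≤ u.re) (T : ℝ) :
    ∃ t ≥ T, ∀ w : GaussianInt, Prime w → R < ‖GaussianInt.toComplex w - (c + t * u)‖ := by
  set α := u.im / u.re with hα
  have hα1 : |α| ≤ 1 := by
    rw [hα, abs_div, abs_of_pos hre, div_le_one hre]; exact him
  obtain ⟨N, hN⟩ := exists_disk 3 3 (R + 1)
  obtain ⟨x0, hx0⟩ := exists_nat_gt (max (T * u.re + c.re) (|R| + (N : ℝ) + 2))
  obtain ⟨hx1, hx2⟩ := max_lt_iff.1 hx0
  set β := α * ((x0 : ℝ) - c.re) + c.im with hβ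
  set y : ℕ → GaussianInt := fun i => ⟨(x0 : ℤ), 0⟩ + digital α β i with hy
  obtain ⟨a, -, ha⟩ : ∃ a ≤ N, ∀ w : GaussianInt, Prime w → (N : ℤ) < w.norm →
      R + 1 < ‖GaussianInt.toComplex w - GaussianInt.toComplex (y a)‖ := by
    refine hN y ?_ ?_ ?_
    · intro i _ j _ hij
      have := congrArg Zsqrtd.re (add_left_cancel hij)
      simpa [digital] using this
    · intro i _
      refine (Complex.norm_le_abs_re_add_abs_im _).trans ?_
      rw [Complex.sub_re, Complex.sub_im, toComplex_re_int, toComplex_re_int, toComplex_im_int,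
        toComplex_im_int]
      simp only [hy, digital, Zsqrtd.re_add, Zsqrtd.im_add]
      have h1 := Int.floor_le (α * i + β)
      have h2 := Int.lt_floor_add_one (α * i + β)
      have h3 := Int.floor_le (α * (i + 1 : ℕ) + β)
      have h4 := Int.lt_floor_add_one (α * (i + 1 : ℕ) + β)
      obtain ⟨h5, h6⟩ := abs_le.1 hα1
      push_cast at h1 h2 h3 h4 ⊢
      have e1 : |((x0 : ℝ) + ((i : ℝ) + 1) - ((x0 : ℝ) + i))| = 1 := by norm_num
      rw [e1]
      have e2 : |(0 + (⌊α * ((i : ℝ) + 1) + β⌋ : ℝ) - (0 + (⌊α * (i : ℝ) + β⌋ : ℝ)))| ≤ 2 := by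
        rw [abs_le]
        constructor <;> linarith
      linarith
    · intro n h1 _
      have h : shapes y n N = shapes (digital α β) n N := by
        simp only [shapes]
        refine image_congr fun i _ => funext fun b => ?_
        simp [shape, hy]
      rw [h]
      calc ((shapes (digital α β) n N).card : ℝ) ≤ ((n + 2 : ℕ) : ℝ) := by
            exact_mod_cast digital_shapes_card α β n N
        _ ≤ 3 * (n : ℝ) := by exact_mod_cast (show n + 2 ≤ 3 * n by omega)
        _ ≤ _ := by
          refine mul_le_mul_of_nonneg_left ?_ (by norm_num)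
          exact Real.self_le_rpow_of_one_le (by exact_mod_cast h1) (by norm_num)
  have hre' : (y a).re = ((x0 + a : ℕ) : ℤ) := by simp [hy, digital]
  have him' : (y a).im = ⌊α * a + β⌋ := by simp [hy, digital]
  refine ⟨(((x0 + a : ℕ) : ℝ) - c.re) / u.re, ?_, fun w hw => not_le.1 fun hle => ?_⟩
  · rw [ge_iff_le, le_div_iff₀ hre]
    push_cast
    have := Nat.cast_nonneg (α := ℝ) a
    linarith
  set q : ℂ := c + ((((x0 + a : ℕ) : ℝ) - c.re) / u.re : ℝ) * u with hq
  have hqre : q.re = ((x0 + a : ℕ) : ℝ) := by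
    rw [hq, Complex.add_re, Complex.re_ofReal_mul, div_mul_cancel₀ _ hre.ne']
    ring
  have hqim : q.im = α * a + β := by
    rw [hq, Complex.add_im, Complex.im_ofReal_mul, hβ, hα]
    push_cast
    field_simp
    ring
  have hclose : ‖q - GaussianInt.toComplex (y a)‖ ≤ 1 := by
    refine (Complex.norm_le_abs_re_add_abs_im _).trans ?_
    rw [Complex.sub_re, Complex.sub_im, toComplex_re_int, toComplex_im_int, hqre, hqim, hre',
      him']
    have h1 := Int.floor_le (α * a + β)
    have h2 := Int.lt_floor_add_one (α * a + β)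
    push_cast
    rw [sub_self, abs_zero, zero_add, abs_of_nonneg (by linarith)]
    linarith
  have hwN : (N : ℤ) < w.norm := by
    have h1 : (x0 : ℝ) - R ≤ ‖GaussianInt.toComplex w‖ := by
      have h2 := Complex.re_le_norm q
      have h3 := norm_le_norm_add_norm_sub' q (GaussianInt.toComplex w)
      rw [norm_sub_rev] at h3
      rw [hqre] at h2
      push_cast at h2
      have := Nat.cast_nonneg (α := ℝ) a
      linarith
    have h4 : (N : ℝ) + 1 ≤ ‖GaussianInt.toComplex w‖ := by linarith [le_abs_self R]
    have h5 : (N : ℝ) < (w.norm : ℝ) := by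
      rw [GaussianInt.intCast_real_norm, Complex.normSq_eq_norm_sq]
      have := Nat.cast_nonneg (α := ℝ) N
      nlinarith
    exact_mod_cast h5
  have h := ha w hw hwN
  linarith [norm_sub_le_norm_sub_add_norm_sub (GaussianInt.toComplex w) q
    (GaussianInt.toComplex (y a))]

/-- Prime-free disks of every radius, arbitrarily far along every ray. -/
theorem disk_line (R : ℝ) (c : ℂ) {u : ℂ} (hu : u ≠ 0) (T : ℝ) :
    ∃ t ≥ T, ∀ w : GaussianInt, Prime w → R < ‖GaussianInt.toComplex w - (c + t * u)‖ := by
  -- multiply by a unit to make the direction nearly horizontal and pointing right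
  obtain ⟨e, he, hre, him⟩ : ∃ e : GaussianInt, IsUnit e ∧ 0 < (GaussianInt.toComplex e * u).re ∧
      |(GaussianInt.toComplex e * u).im| ≤ (GaussianInt.toComplex e * u).re := by
    have hne : 0 < |u.re| ∨ 0 < |u.im| := by
      by_contra h
      push Not at h
      exact hu (Complex.ext (abs_nonpos_iff.1 h.1) (abs_nonpos_iff.1 h.2))
    rcases le_total |u.im| |u.re| with h | h
    · rcases le_total 0 u.re with h' | h'
      · refine ⟨1, isUnit_one, ?_⟩
        rw [abs_of_nonneg h'] at h hne
        simp only [map_one, one_mul]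
        exact ⟨hne.elim id fun h2 => h2.trans_le h, h⟩
      · refine ⟨-1, isUnit_one.neg, ?_⟩
        rw [abs_of_nonpos h'] at h hne
        simp only [map_neg, map_one, neg_mul, one_mul, Complex.neg_re, Complex.neg_im, abs_neg]
        exact ⟨hne.elim id fun h2 => h2.trans_le h, h⟩
    · have hI : GaussianInt.toComplex (⟨0, 1⟩ : GaussianInt) = Complex.I := by
        apply Complex.ext <;> simp [toComplex_re_int, toComplex_im_int]
      have hunit : IsUnit (⟨0, 1⟩ : GaussianInt) :=
        Zsqrtd.norm_eq_one_iff.1 (by simp [Zsqrtd.norm])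
      rcases le_total 0 u.im with h' | h'
      · refine ⟨-⟨0, 1⟩, hunit.neg, ?_⟩
        rw [abs_of_nonneg h'] at h hne
        simp only [map_neg, hI, neg_mul, Complex.neg_re, Complex.neg_im, abs_neg, Complex.mul_re,
          Complex.mul_im, Complex.I_re, Complex.I_im, zero_mul, one_mul, zero_sub, zero_add,
          neg_neg]
        exact ⟨hne.elim (fun h2 => h2.trans_le h) id, h⟩
      · refine ⟨⟨0, 1⟩, hunit, ?_⟩
        rw [abs_of_nonpos h'] at h hne
        simp only [hI, Complex.mul_re, Complex.mul_im, Complex.I_re, Complex.I_im, zero_mul,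
          one_mul, zero_sub, zero_add]
        exact ⟨hne.elim (fun h2 => h2.trans_le h) id, h⟩
  obtain ⟨t, ht, hdisk⟩ := disk_line_flat R (c := GaussianInt.toComplex e * c) hre him T
  refine ⟨t, ht, fun w hw => ?_⟩
  have h := hdisk (e * w) ((associated_unit_mul_right w e he).prime hw)
  have hnorm : ‖GaussianInt.toComplex e‖ = 1 := by
    have h1 : ‖GaussianInt.toComplex e‖ ^ 2 = 1 := by
      rw [← Complex.normSq_eq_norm_sq, ← GaussianInt.intCast_real_norm, isUnit_norm he]; norm_num
    exact (pow_eq_one_iff_of_nonneg (norm_nonneg _) two_ne_zero).1 h1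
  rwa [map_mul, show GaussianInt.toComplex e * GaussianInt.toComplex w -
      (GaussianInt.toComplex e * c + t * (GaussianInt.toComplex e * u)) =
      GaussianInt.toComplex e * (GaussianInt.toComplex w - (c + t * u)) by ring, norm_mul, hnorm,
    one_mul] at h

end Vale.Agent.P015.LowComplexity
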